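import Vale.Agent.P052.H768.Two2
import Vale.Agent.P052.H768.Orth
import Vale.Agent.P052.H768.OneFour
import Vale.Agent.P052.H768.ThreeIrr

namespace Vale.Agent.Results.P052.MirrorSymmetry

open Vale.Agent.P052
open scoped RealInnerProductSpace

/-- Borsuk's partition problem for sets with mirror symmetries, in every dimension `d`. Let `X` be
a bounded set of positive diameter which is symmetric in the `k` hyperplanes `⟪α i, x⟫ = c i`, whose
unit normals `α i` are linearly independent.
(1) `X` is a union of `d + 1` sets of smaller diameter in each of the cases: `k ≥ d - 1`;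
`k ≥ 1` and `d ≤ 4` (so one hyperplane of symmetry is enough in dimension four);
`k ≥ d - 2` and `d ≤ 17`; `k ≥ d - 2` and the normals do not split into two orthogonal nonempty
parts; `k ≥ d - 3`, the normals do not split and every point of `X` is at distance at most
`diam X / 2` from the intersection of the hyperplanes; some symmetry of `X` that fixes a common
point `p` of the hyperplanes acts as `-1` on the orthogonal complement of the span of the `α i`.
(2) In all cases `X` is a union of `k + 2 ^ (d - k)` sets of smaller diameter.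
(3) If the `α i` form `r` irreducible blocks and the points of the closure of `X` that lie on all
`k` hyperplanes are covered by `N` sets of diameter less than `diam X`, then `X` is a union of
`k + r + N` sets of smaller diameter. -/
theorem result (d k : ℕ) (X : Set (EuclideanSpace ℝ (Fin d))) (hX : Bornology.IsBounded X)
    (hD : 0 < Metric.diam X) (α : Fin k → EuclideanSpace ℝ (Fin d)) (c : Fin k → ℝ)
    (hα : ∀ i, ‖α i‖ = 1) (hli : LinearIndependent ℝ α)
    (hmir : ∀ i, ∀ x ∈ X, x - (2 * (⟪α i, x⟫ - c i)) • α i ∈ X) :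
    ((d ≤ k + 1 ∨ (1 ≤ k ∧ d ≤ 4) ∨ (d ≤ k + 2 ∧ d ≤ 17) ∨
        (d ≤ k + 2 ∧ ∀ J : Set (Fin k), J.Nonempty → J ≠ Set.univ →
          ∃ i ∈ J, ∃ j ∉ J, ⟪α i, α j⟫ ≠ 0) ∨
        (d ≤ k + 3 ∧ (∀ J : Set (Fin k), J.Nonempty → J ≠ Set.univ →
          ∃ i ∈ J, ∃ j ∉ J, ⟪α i, α j⟫ ≠ 0) ∧
          ∀ x ∈ X, ∃ y, (∀ i, ⟪α i, y⟫ = c i) ∧ 2 * dist x y ≤ Metric.diam X) ∨
        ∃ (p : EuclideanSpace ℝ (Fin d))
        (g : EuclideanSpace ℝ (Fin d) ≃ₗᵢ[ℝ] EuclideanSpace ℝ (Fin d)),
        (∀ i, ⟪α i, p⟫ = c i) ∧ (∀ z ∈ (Submodule.span ℝ (Set.range α))ᗮ, g z = -z) ∧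
        ∀ x ∈ X, p + g (x - p) ∈ X) →
      IsSmallerCover X (d + 1) ∧ borsukNumber X ≤ d + 1) ∧
    (IsSmallerCover X (k + 2 ^ (d - k)) ∧ borsukNumber X ≤ k + 2 ^ (d - k)) ∧
    (∀ (r : ℕ) (κ : Fin k → Fin r),
      (∀ i j, κ i ≠ κ j → ⟪α i, α j⟫ = 0) →
      (∀ J : Set (Fin k), (∀ i ∈ J, ∀ j ∉ J, ⟪α i, α j⟫ = 0) →
        ∀ i ∈ J, ∀ j, κ j = κ i → j ∈ J) →
      ∀ (N : ℕ) (P : Fin N → Set (EuclideanSpace ℝ (Fin d))),
      (∀ i, Bornology.IsBounded (P i)) → (∀ i, Metric.diam (P i) < Metric.diam X) →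
      closure X ∩ {x | ∀ i, ⟪α i, x⟫ = c i} ⊆ ⋃ i, P i →
      IsSmallerCover X (k + r + N) ∧ borsukNumber X ≤ k + r + N) := by
  refine ⟨fun h => ?_, ?_, fun r κ h1 h2 N P hPb hPd hP => ?_⟩
  · have h1 : IsSmallerCover X (d + 1) := by
      rcases h with h | ⟨h1, h4⟩ | ⟨h, h17⟩ | ⟨h, hirr⟩ | ⟨h, hirr, hnear⟩ | h
      · exact H768.main hX hD α c hα hli hmir (Or.inl h)
      · exact H768.main_le_four h1 h4 hX hD α c hα hli hmir
      · by_cases hk : d = k + 2
        · exact H768.main_two_small hk h17 hX hD α c hα hli hmir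
        · exact H768.main hX hD α c hα hli hmir (Or.inl (by omega))
      · by_cases hk : d = k + 2
        · exact H768.main_two_irred hk hX hD α c hα hli hmir hirr
        · exact H768.main hX hD α c hα hli hmir (Or.inl (by omega))
      · by_cases hk : d = k + 3
        · exact H768.main_three_irred hk hX hD α c hα hli hmir hirr hnear
        by_cases hk2 : d = k + 2
        · exact H768.main_two_irred hk2 hX hD α c hα hli hmir hirr
        · exact H768.main hX hD α c hα hli hmir (Or.inl (by omega))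
      · exact H768.main hX hD α c hα hli hmir (Or.inr h)
    exact ⟨h1, Nat.sInf_le h1⟩
  · have h2 := H768.main_orthants hX hD α c hα hli hmir
    exact ⟨h2, Nat.sInf_le h2⟩
  · have h3 := H768.main_blocks hX hD α c hα hli hmir κ ⟨h1, h2⟩ P hPb hPd hP
    exact ⟨h3, Nat.sInf_le h3⟩

end Vale.Agent.Results.P052.MirrorSymmetry
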